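import Mathlib

/-!
# P042: powers modulo prime powers, by Hensel's lemma
-/

namespace Vale.Agent.P042.H13

open Polynomial

/-- A power modulo all powers of `p` from an approximate root in the `p`-adic integers. -/
theorem root_of_approx {p : ℕ} (hp : p.Prime) (k : ℕ) (z a : ℤ)
    (h : letI : Fact p.Prime := ⟨hp⟩; ‖((a ^ k - z : ℤ) : ℤ_[p])‖ <
      ‖((k * a ^ (k - 1) : ℤ) : ℤ_[p])‖ ^ 2) (N : ℕ) :
    ∃ n : ZMod (p ^ N), (z : ZMod (p ^ N)) = n ^ k := by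
  have : Fact p.Prime := ⟨hp⟩
  have hF : ∀ w : ℤ_[p], aeval w (X ^ k - C z : ℤ[X]) = w ^ k - (z : ℤ_[p]) := by
    intro w
    rw [map_sub, map_pow, aeval_X, aeval_C]
    rfl
  have hF' : ∀ w : ℤ_[p], aeval w (derivative (X ^ k - C z : ℤ[X])) =
      (k : ℤ_[p]) * w ^ (k - 1) := by
    intro w
    rw [derivative_sub, derivative_C, sub_zero, derivative_X_pow, map_mul, map_pow, aeval_X,
      aeval_C]
    simp
  have hnorm : ‖aeval (a : ℤ_[p]) (X ^ k - C z : ℤ[X])‖ <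
      ‖aeval (a : ℤ_[p]) (derivative (X ^ k - C z : ℤ[X]))‖ ^ 2 := by
    rw [hF, hF']
    simpa using h
  obtain ⟨w, hw, -⟩ := hensels_lemma hnorm
  rw [hF] at hw
  refine ⟨PadicInt.toZModPow N w, ?_⟩
  rw [← map_pow, sub_eq_zero.1 hw, map_intCast]

/-- Powers prime to `p`, exponent prime to `p`. -/
theorem hensel_coprime {p k : ℕ} (hp : p.Prime) (hk : ¬ p ∣ k) (z : ℤ) (h0 : (z : ZMod p) ≠ 0)
    (hz : ∃ n : ZMod p, (z : ZMod p) = n ^ k) (N : ℕ) :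
    ∃ n : ZMod (p ^ N), (z : ZMod (p ^ N)) = n ^ k := by
  have : Fact p.Prime := ⟨hp⟩
  obtain ⟨n, hn⟩ := hz
  have hk0 : k ≠ 0 := fun h => hk (h ▸ dvd_zero p)
  have hval : ((n.val : ℤ) : ZMod p) = n := by simp
  have hn0 : n ≠ 0 := by
    rintro rfl
    exact h0 (by rw [hn, zero_pow hk0])
  refine root_of_approx hp k z n.val ?_ N
  have h1 : ‖(((n.val : ℤ) ^ k - z : ℤ) : ℤ_[p])‖ < 1 := by
    rw [PadicInt.norm_int_lt_one_iff_dvd, ← ZMod.intCast_zmod_eq_zero_iff_dvd]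
    rw [Int.cast_sub, Int.cast_pow, hval, hn, sub_self]
  have h2 : ‖((k * (n.val : ℤ) ^ (k - 1) : ℤ) : ℤ_[p])‖ = 1 := by
    refine le_antisymm (PadicInt.norm_le_one _) (not_lt.1 fun h => ?_)
    rw [PadicInt.norm_int_lt_one_iff_dvd] at h
    rcases (Nat.prime_iff_prime_int.1 hp).dvd_or_dvd h with h | h
    · exact hk (by exact_mod_cast h)
    · have h3 := (Nat.prime_iff_prime_int.1 hp).dvd_of_dvd_pow h
      rw [← ZMod.intCast_zmod_eq_zero_iff_dvd, hval] at h3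
      exact hn0 h3
  rw [h2, one_pow]
  exact h1

/-- Integers near one. -/
theorem hensel_dvd {p k : ℕ} (hp : p.Prime) (hk : 1 ≤ k) (z : ℤ)
    (hz : (z : ZMod (p ^ (2 * k))) = 1) (N : ℕ) :
    ∃ n : ZMod (p ^ N), (z : ZMod (p ^ N)) = n ^ k := by
  have : Fact p.Prime := ⟨hp⟩
  have hp0 : (0 : ℝ) < p := by exact_mod_cast hp.pos
  refine root_of_approx hp k z 1 ?_ N
  have h1 : ‖((1 ^ k - z : ℤ) : ℤ_[p])‖ ≤ (p : ℝ) ^ (-((2 * k : ℕ) : ℤ)) := by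
    rw [PadicInt.norm_int_le_pow_iff_dvd, one_pow]
    have h : ((1 - z : ℤ) : ZMod (p ^ (2 * k))) = 0 := by
      rw [Int.cast_sub, hz, Int.cast_one, sub_self]
    have := (ZMod.intCast_zmod_eq_zero_iff_dvd (1 - z) (p ^ (2 * k))).1 h
    exact_mod_cast this
  have h2 : (p : ℝ) ^ (-(k : ℤ)) < ‖((k * 1 ^ (k - 1) : ℤ) : ℤ_[p])‖ := by
    refine not_le.1 fun h => ?_
    rw [PadicInt.norm_int_le_pow_iff_dvd, one_pow, mul_one] at h
    have h3 : p ^ k ∣ k := by exact_mod_cast h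
    have h4 := Nat.le_of_dvd hk h3
    have h5 : k < p ^ k := Nat.lt_pow_self hp.one_lt
    omega
  have h3 : (p : ℝ) ^ (-((2 * k : ℕ) : ℤ)) = ((p : ℝ) ^ (-(k : ℤ))) ^ 2 := by
    rw [← zpow_natCast, ← zpow_mul]
    congr 1
    push_cast
    ring
  rw [h3] at h1
  exact h1.trans_lt (pow_lt_pow_left₀ h2 (by positivity) (by norm_num))

end Vale.Agent.P042.H13
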